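import Crest.Agent.R19.Rep

/-! A dense set of integers each of which is a short sum of divisors of one modulus. -/

set_option autoImplicit false

namespace Crest.Agent.R19

open Finset

theorem pi_ge {w : ℕ} (hw : 3 ≤ w) : 2 ^ w ≤ 2 * w * (Nat.primesLE (2 ^ w)).card := by
  set P := 2 ^ w with hP
  set c := (Nat.primesLE P).card with hc
  have h3 := Chebyshev.two_pow_le_mul_lcmUpto P
  have hP0 : P ≠ 0 := by positivity
  have h4 : Nat.lcmUpto P ≤ P ^ c := by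
    rw [Nat.lcmUpto_eq_prod_pow_log]
    exact Finset.prod_le_pow_card _ _ _ fun p _ => Nat.pow_log_le_self p hP0
  have h5 : 2 ^ P ≤ 2 ^ (w * c + w + 1) := by
    calc 2 ^ P ≤ (P + 1) * Nat.lcmUpto P := h3
      _ ≤ (2 * P) * P ^ c := Nat.mul_le_mul (by have := Nat.pos_of_ne_zero hP0; omega) h4
      _ = 2 ^ (w * c + w + 1) := by rw [hP, ← pow_mul]; ring
  have h6 : P ≤ w * c + w + 1 := (Nat.pow_le_pow_iff_right (by norm_num)).1 h5
  have h7 : 2 * (w + 1) ≤ P := by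
    obtain ⟨v, rfl⟩ := Nat.exists_eq_add_of_le hw
    have := Nat.lt_two_pow_self (n := v)
    rw [hP, pow_add]; omega
  nlinarith

theorem digits (D : Finset ℕ) (N0 B : ℕ) (hN : 0 < N0) (hB : 2 ≤ B) (hD : ∀ d ∈ D, d ∣ N0)
    (hinj : ∀ d ∈ D, ∀ d' ∈ D, d ≡ d' [MOD B] → d = d') (k : ℕ) :
    ∃ A : Finset ℕ, A.card = D.card ^ k ∧ ∀ α ∈ A, α + N0 ≤ N0 * B ^ k ∧ (0 < k → 0 < α) ∧
      ∀ m, 0 < m → Rep k (α / (N0 * B ^ k * m : ℕ)) := by
  induction k with
  | zero =>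
    refine ⟨{0}, by simp, fun α hα => ?_⟩
    rw [mem_singleton.1 hα]
    exact ⟨by simp, by simp, fun m _ => (Rep.zero 0).congr (by simp)⟩
  | succ k ih =>
    obtain ⟨A, h1, h2⟩ := ih
    refine ⟨(D ×ˢ A).image fun x => x.1 + B * x.2, ?_, fun α hα => ?_⟩
    · rw [card_image_of_injOn, card_product, h1, pow_succ']
      rintro ⟨d, α⟩ hx ⟨d', α'⟩ hx' h
      simp only [coe_product, Set.mem_prod, mem_coe] at hx hx' h
      have e : d = d' := hinj d hx.1 d' hx'.1 (by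
        have : (d + B * α) % B = (d' + B * α') % B := by rw [h]
        simpa [Nat.ModEq] using this)
      subst e
      rw [Nat.eq_of_mul_eq_mul_left (by omega : 0 < B) (Nat.add_left_cancel h)]
    · obtain ⟨⟨d, β⟩, hx, rfl⟩ := mem_image.1 hα
      obtain ⟨hd, hβ⟩ := mem_product.1 hx
      obtain ⟨h3, -, h5⟩ := h2 β hβ
      obtain ⟨e, he⟩ := hD d hd
      have hd0 : 0 < d := Nat.pos_of_dvd_of_pos (hD d hd) hN
      have he0 : 0 < e := Nat.pos_of_dvd_of_pos (Dvd.intro_left d he.symm) hN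
      have hdle := Nat.le_of_dvd hN (hD d hd)
      refine ⟨?_, fun _ => by simp only; omega, fun m hm => ?_⟩
      · have := Nat.mul_le_mul_left B h3
        have := Nat.mul_le_mul_right N0 hB
        simp only [pow_succ]
        nlinarith
      · refine ((h5 m hm).add (Rep.unit (n := e * B ^ (k + 1) * m) (by positivity))).congr ?_
        have : (B : ℚ) ≠ 0 := by positivity
        rw [he]
        push_cast
        field_simp
        ring

theorem card_prime_dvd_le {n L : ℕ} (hn : n ≠ 0) (hL : n ≤ 2 ^ L) (G : Finset ℕ)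
    (hG : ∀ p ∈ G, p.Prime) : (G.filter (· ∣ n)).card ≤ L := by
  have h1 : G.filter (· ∣ n) ⊆ n.primeFactors := fun p hp =>
    Nat.mem_primeFactors.2 ⟨hG p (mem_filter.1 hp).1, (mem_filter.1 hp).2, hn⟩
  refine (card_le_card h1).trans ((Nat.pow_le_pow_iff_right (by norm_num : 1 < 2)).1 ?_)
  calc 2 ^ n.primeFactors.card ≤ ∏ p ∈ n.primeFactors, p :=
        Finset.pow_card_le_prod _ _ _ fun p hp => (Nat.prime_of_mem_primeFactors hp).two_le
    _ ≤ n := Nat.le_of_dvd (Nat.pos_of_ne_zero hn) (Nat.prod_primeFactors_dvd n)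
    _ ≤ _ := hL

theorem exists_modulus (D G : Finset ℕ) (L : ℕ) (hD : ∀ d ∈ D, d ≤ 2 ^ L) (hG : ∀ p ∈ G, p.Prime)
    (hne : G.Nonempty) (hcard : 2 * D.card * L ≤ G.card) :
    ∃ B ∈ G, ∃ D' ⊆ D, D.card ≤ 2 * D'.card ∧ ∀ d ∈ D', ∀ d' ∈ D', d ≡ d' [MOD B] → d = d' := by
  classical
  let bad : ℕ → Finset ℕ := fun B => D.filter fun d => ∃ d' ∈ D, d' ≠ d ∧ d ≡ d' [MOD B]
  have h1 : ∑ B ∈ G, (bad B).card ≤ D.card * (D.card * L) := by
    calc ∑ B ∈ G, (bad B).card ≤ ∑ B ∈ G, ∑ d ∈ D, ∑ d' ∈ D,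
          if d' ≠ d ∧ d ≡ d' [MOD B] then 1 else 0 := by
          refine sum_le_sum fun B _ => ?_
          rw [card_filter]
          refine sum_le_sum fun d _ => ?_
          split_ifs with h
          · obtain ⟨d', h1, h2⟩ := h
            exact le_trans (by rw [if_pos h2]) (single_le_sum
              (f := fun d' => if d' ≠ d ∧ d ≡ d' [MOD B] then 1 else 0) (fun _ _ => Nat.zero_le _) h1)
          · exact Nat.zero_le _
      _ = ∑ d ∈ D, ∑ d' ∈ D, ∑ B ∈ G, if d' ≠ d ∧ d ≡ d' [MOD B] then 1 else 0 := by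
          rw [sum_comm]
          exact sum_congr rfl fun d _ => sum_comm
      _ ≤ _ := by
          refine sum_le_card_nsmul _ _ _ fun d hd => sum_le_card_nsmul _ _ _ fun d' hd' => ?_
          by_cases h : d' = d
          · simp [h]
          · rw [← card_filter]
            refine le_trans (card_le_card ?_) (card_prime_dvd_le (n := ((d' : ℤ) - d).natAbs)
              (by omega) (by have := hD d hd; have := hD d' hd'; omega) G hG)
            intro p hp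
            rw [mem_filter] at hp ⊢
            exact ⟨hp.1, Int.natCast_dvd.1 (Nat.modEq_iff_dvd.1 hp.2.2)⟩
  obtain ⟨B, hB, h2⟩ := exists_le_of_sum_le (f := fun B => 2 * (bad B).card)
    (g := fun _ => D.card) hne (by
      rw [← mul_sum, sum_const, smul_eq_mul]
      nlinarith)
  refine ⟨B, hB, D \ bad B, sdiff_subset, ?_, fun d hd d' hd' h => ?_⟩
  · rw [card_sdiff_of_subset (show bad B ⊆ D from filter_subset _ _)]
    omega
  · by_contra hne
    rw [mem_sdiff] at hd hd'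
    exact hd.2 (mem_filter.2 ⟨hd.1, d', hd'.1, Ne.symm hne, h⟩)

/-- The dense set. -/
theorem dense_set {t ω : ℕ} (ht : 4 ≤ t) (hω : 4 * t * ω ≤ 2 ^ (2 * t))
    (hω' : 8 * t * ω * (ω + 2 * t) ≤ 2 ^ (2 * t)) (k : ℕ) :
    ∃ (N0 N : ℕ) (A : Finset ℕ), 0 < N0 ∧ N0 ≤ 2 ^ (2 * t * ω) ∧ 0 < N ∧
      N ≤ N0 * 2 ^ ((ω + 2 * t) * k) ∧ 2 ^ (ω * k) ≤ 2 ^ k * A.card ∧
      ∀ α ∈ A, α < N ∧ (0 < k → 0 < α) ∧ ∀ m, 0 < m → Rep k (α / (N * m : ℕ)) := by
  classical
  have h1 : ω ≤ (Nat.primesLE (2 ^ (2 * t))).card := by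
    have := pi_ge (w := 2 * t) (by omega)
    exact Nat.le_of_mul_le_mul_left (c := 4 * t) (by nlinarith) (by omega)
  obtain ⟨P, hP, hPc⟩ := exists_subset_card_eq h1
  have hPp : ∀ p ∈ P, p.Prime ∧ p ≤ 2 ^ (2 * t) := fun p hp =>
    (Nat.mem_primesLE.1 (hP hp)).symm
  set N0 := ∏ p ∈ P, p with hN0
  have hN : 0 < N0 := prod_pos fun p hp => (hPp p hp).1.pos
  have hNle : N0 ≤ 2 ^ (2 * t * ω) := by
    rw [pow_mul, ← hPc]
    exact prod_le_pow_card _ _ _ fun p hp => (hPp p hp).2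
  let D := P.powerset.image fun s => ∏ p ∈ s, p
  have hD : ∀ d ∈ D, d ∣ N0 := by
    intro d hd
    obtain ⟨s, hs, rfl⟩ := mem_image.1 hd
    exact prod_dvd_prod_of_subset _ _ _ (mem_powerset.1 hs)
  have hDc : D.card = 2 ^ ω := by
    rw [card_image_of_injOn, card_powerset, hPc]
    intro s hs s' hs' h
    rw [mem_coe, mem_powerset] at hs hs'
    rw [← Nat.primeFactors_prod fun p hp => (hPp p (hs hp)).1,
      ← Nat.primeFactors_prod fun p hp => (hPp p (hs' hp)).1]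
    exact congrArg _ h
  obtain ⟨B, hB, D', hD', hc, hinj⟩ := exists_modulus D (Nat.primesLE (2 ^ (ω + 2 * t)))
    (2 * t * ω) (fun d hd => (Nat.le_of_dvd hN (hD d hd)).trans hNle)
    (fun p hp => (Nat.mem_primesLE.1 hp).2)
    ⟨2, Nat.mem_primesLE.2 ⟨Nat.le_self_pow (by omega) 2, Nat.prime_two⟩⟩ (by
      have h2 := pi_ge (w := ω + 2 * t) (by omega)
      refine Nat.le_of_mul_le_mul_left (c := 2 * (ω + 2 * t)) (le_trans ?_ h2) (by omega)
      rw [hDc, pow_add]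
      calc _ = 2 ^ ω * (8 * t * ω * (ω + 2 * t)) := by ring
        _ ≤ _ := Nat.mul_le_mul_left _ hω')
  obtain ⟨hB1, hB2⟩ := Nat.mem_primesLE.1 hB
  obtain ⟨A, hA, hA'⟩ := digits D' N0 B hN hB2.two_le (fun d hd => hD d (hD' hd)) hinj k
  refine ⟨N0, N0 * B ^ k, A, hN, hNle, Nat.mul_pos hN (pow_pos hB2.pos _), ?_, ?_, fun α hα => ?_⟩
  · rw [pow_mul]
    exact Nat.mul_le_mul_left _ (Nat.pow_le_pow_left hB1 _)
  · rw [hA, ← mul_pow, pow_mul, ← hDc]
    exact Nat.pow_le_pow_left hc _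
  · obtain ⟨h2, h3, h4⟩ := hA' α hα
    exact ⟨by omega, h3, h4⟩

end Crest.Agent.R19
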