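import Mathlib

/-! A crude large sieve and the bilinear congruence lemma. -/

set_option autoImplicit false

namespace Crest.Agent.R19

open Finset Complex
open scoped ComplexConjugate

noncomputable def ex (x : ℂ) : ℂ := exp (2 * Real.pi * I * x)

theorem ex_add (x y : ℂ) : ex (x + y) = ex x * ex y := by
  unfold ex; rw [mul_add, exp_add]

theorem ex_int (n : ℤ) : ex n = 1 := by
  unfold ex; rw [mul_comm]; exact exp_int_mul_two_pi_mul_I n

theorem ex_pow (x : ℂ) (n : ℕ) : ex x ^ n = ex (n * x) := by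
  unfold ex; rw [← exp_nat_mul]; congr 1; ring

theorem norm_ex (x : ℝ) : ‖ex x‖ = 1 := by
  have : ex x = exp (((2 * Real.pi * x : ℝ) : ℂ) * I) := by unfold ex; congr 1; push_cast; ring
  rw [this, norm_exp_ofReal_mul_I]

theorem conj_ex (x : ℝ) : conj (ex x) = ex (-x) := by
  unfold ex; rw [← exp_conj]; congr 1; simp [map_ofNat]

theorem ex_ne_one (p : ℤ) (q : ℕ) (hq : 0 < q) (h : ¬ (q : ℤ) ∣ p) : ex (p / q) ≠ 1 := by
  intro h1
  obtain ⟨n, hn⟩ := exp_eq_one_iff.1 h1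
  have hq' : (q : ℂ) ≠ 0 := by exact_mod_cast hq.ne'
  have h2 : (2 * Real.pi * I : ℂ) ≠ 0 := two_pi_I_ne_zero
  have h3 : (p : ℂ) / q = n := by
    apply mul_left_cancel₀ h2; rw [hn]; ring
  apply h
  refine ⟨n, ?_⟩
  have : (p : ℂ) = q * n := by rw [← h3]; field_simp
  exact_mod_cast this

theorem geom_mod (p : ℤ) (q : ℕ) (hq : 0 < q) (h : ¬ (q : ℤ) ∣ p) (X : ℕ) :
    ∑ n ∈ range X, ex (p / q) ^ n = ∑ n ∈ range (X % q), ex (p / q) ^ n := by
  have h1 := ex_ne_one p q hq h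
  have hq' : (q : ℂ) ≠ 0 := by exact_mod_cast hq.ne'
  have h2 : ex (p / q) ^ q = 1 := by
    rw [ex_pow, mul_div_cancel₀ _ hq', ex_int]
  apply mul_right_cancel₀ (sub_ne_zero.2 h1)
  rw [geom_sum_mul, geom_sum_mul, ← pow_eq_pow_mod X h2]

theorem geom_norm_le (p : ℤ) (q : ℕ) (hq : 0 < q) (h : ¬ (q : ℤ) ∣ p) (X : ℕ) :
    ‖∑ n ∈ range X, ex (p / q) ^ n‖ ≤ (X % q : ℕ) := by
  rw [geom_mod p q hq h]
  refine (norm_sum_le _ _).trans (le_of_eq ?_)
  have : ‖ex (p / q)‖ = 1 := by simpa using norm_ex (p / q)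
  simp [this]

theorem geom_zero (p : ℤ) (q : ℕ) (hq : 0 < q) (h : ¬ (q : ℤ) ∣ p) :
    ∑ n ∈ range q, ex (p / q) ^ n = 0 := by
  rw [geom_mod p q hq h]; simp

theorem large_sieve {ι : Type*} [DecidableEq ι] (R : Finset ι) (ζ : ι → ℂ) (hζ : ∀ r, ‖ζ r‖ = 1)
    (A : Finset ℕ) (X : ℕ) (hA : A ⊆ range X) (Q : ℝ) (hQ : 0 ≤ Q)
    (hsep : ∀ r ∈ R, ∀ r' ∈ R, r ≠ r' → ‖∑ m ∈ range X, (ζ r * conj (ζ r')) ^ m‖ ≤ Q) :
    ∑ r ∈ R, ‖∑ α ∈ A, ζ r ^ α‖ ^ 2 ≤ (X + R.card * Q) * A.card := by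
  set c : ι → ℂ := fun r => ∑ α ∈ A, ζ r ^ α with hc
  set S : ℝ := ∑ r ∈ R, ‖c r‖ ^ 2 with hS
  set g : ℕ → ℂ := fun m => ∑ r ∈ R, conj (c r) * ζ r ^ m with hg
  have hS0 : 0 ≤ S := Finset.sum_nonneg fun _ _ => by positivity
  have h1 : S ≤ ∑ α ∈ A, ‖g α‖ := by
    have : (S : ℂ) = ∑ α ∈ A, g α := by
      simp only [hg, hS]
      rw [Finset.sum_comm]
      push_cast
      refine Finset.sum_congr rfl fun r _ => ?_
      rw [← Finset.mul_sum, conj_mul']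
    calc S = ‖(S : ℂ)‖ := by rw [norm_real, Real.norm_of_nonneg hS0]
      _ ≤ _ := by rw [this]; exact norm_sum_le _ _
  have h2 : (∑ α ∈ A, ‖g α‖) ^ 2 ≤ A.card * ∑ m ∈ range X, ‖g m‖ ^ 2 :=
    sq_sum_le_card_mul_sum_sq.trans (mul_le_mul_of_nonneg_left
      (Finset.sum_le_sum_of_subset_of_nonneg hA fun _ _ _ => by positivity) (by positivity))
  have h3 : ∑ m ∈ range X, ‖g m‖ ^ 2 ≤ (X + R.card * Q) * S := by
    have e : ((∑ m ∈ range X, ‖g m‖ ^ 2 : ℝ) : ℂ) = ∑ r ∈ R, ∑ r' ∈ R,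
        conj (c r) * c r' * ∑ m ∈ range X, (ζ r * conj (ζ r')) ^ m := by
      have e1 : ∀ m, ((‖g m‖ : ℂ)) ^ 2 = ∑ r ∈ R, ∑ r' ∈ R,
          conj (c r) * c r' * (ζ r * conj (ζ r')) ^ m := fun m => by
        rw [← mul_conj', hg]
        simp only [map_sum, map_mul, conj_conj, map_pow]
        rw [Finset.sum_mul_sum]
        exact Finset.sum_congr rfl fun r _ => Finset.sum_congr rfl fun r' _ => by ring
      push_cast
      simp only [e1, Finset.mul_sum]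
      rw [Finset.sum_comm]
      exact Finset.sum_congr rfl fun r _ => Finset.sum_comm
    have e0 : 0 ≤ ∑ m ∈ range X, ‖g m‖ ^ 2 := Finset.sum_nonneg fun _ _ => by positivity
    calc ∑ m ∈ range X, ‖g m‖ ^ 2 = ‖((∑ m ∈ range X, ‖g m‖ ^ 2 : ℝ) : ℂ)‖ := by
          rw [norm_real, Real.norm_of_nonneg e0]
      _ ≤ ∑ r ∈ R, ∑ r' ∈ R, ‖c r‖ * ‖c r'‖ * ((if r = r' then (X : ℝ) else 0) + Q) := by
          rw [e]
          refine (norm_sum_le _ _).trans (Finset.sum_le_sum fun r hr =>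
            (norm_sum_le _ _).trans (Finset.sum_le_sum fun r' hr' => ?_))
          rw [norm_mul, norm_mul, norm_conj]
          refine mul_le_mul_of_nonneg_left ?_ (by positivity)
          split_ifs with h
          · subst h
            rw [mul_conj', hζ]
            simp [hQ]
          · simpa using hsep r hr r' hr' h
      _ = X * S + Q * (∑ r ∈ R, ‖c r‖) ^ 2 := by
          simp only [mul_add, Finset.sum_add_distrib, mul_ite, mul_zero, Finset.sum_ite_eq]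
          rw [sq, Finset.sum_mul_sum, hS, Finset.mul_sum, Finset.mul_sum]
          congr 1
          · refine Finset.sum_congr rfl fun r hr => ?_
            rw [if_pos hr]; ring
          · refine Finset.sum_congr rfl fun r _ => ?_
            rw [Finset.mul_sum]
            exact Finset.sum_congr rfl fun r' _ => by ring
      _ ≤ X * S + Q * (R.card * S) := by
          gcongr
          exact sq_sum_le_card_mul_sum_sq
      _ = _ := by ring
  have h4 : S ^ 2 ≤ A.card * ((X + R.card * Q) * S) :=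
    ((pow_le_pow_left₀ hS0 h1 2).trans h2).trans (mul_le_mul_of_nonneg_left h3 (by positivity))
  rcases hS0.lt_or_eq with h5 | h5
  · nlinarith
  · rw [← h5]; positivity

theorem detect {a γ n1 n2 : ℕ} (ha : 0 < a) (hγ : 0 < γ) (h : ¬ (γ ∣ n1 ∧ a ∣ n1 / γ + n2)) :
    ∑ h ∈ range a, ∑ j ∈ range γ,
      ex (((h + j * a : ℕ) : ℂ) / (a * γ)) ^ n1 * ex ((h : ℂ) / a) ^ n2 = 0 := by
  have ha' : (a : ℂ) ≠ 0 := by exact_mod_cast ha.ne'
  have hγ' : (γ : ℂ) ≠ 0 := by exact_mod_cast hγ.ne'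
  by_cases h1 : γ ∣ n1
  · obtain ⟨w, rfl⟩ := h1
    rw [Nat.mul_div_cancel_left _ hγ] at h
    have h2 : ¬ (a : ℤ) ∣ ((w + n2 : ℕ) : ℤ) := fun h2 =>
      h ⟨dvd_mul_right _ _, Int.natCast_dvd_natCast.1 h2⟩
    have h3 := geom_zero _ a ha h2
    rw [Finset.sum_comm]
    refine Finset.sum_eq_zero fun j _ => ?_
    rw [← h3]
    refine Finset.sum_congr rfl fun h _ => ?_
    rw [ex_pow, ex_pow, ex_pow, ← ex_add, ← mul_one (ex (h * _)), ← ex_int (j * w), ← ex_add]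
    congr 1
    push_cast
    field_simp
    ring
  · have h3 := geom_zero (n1 : ℤ) γ hγ (fun h2 => h1 (Int.natCast_dvd_natCast.1 h2))
    refine Finset.sum_eq_zero fun h _ => ?_
    have : ∀ j : ℕ, ex (((h + j * a : ℕ) : ℂ) / (a * γ)) ^ n1 * ex ((h : ℂ) / a) ^ n2 =
        (ex (n1 * h / (a * γ)) * ex ((h : ℂ) / a) ^ n2) * ex (((n1 : ℤ) : ℂ) / γ) ^ j := by
      intro j
      rw [ex_pow, ex_pow, ex_pow, ← ex_add, ← ex_add, ← ex_add]
      congr 1
      push_cast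
      field_simp
      ring
    simp only [this, ← Finset.mul_sum, h3, mul_zero]

theorem sep_arith {a z h γ γ' j j' : ℕ} (hrough : ∀ p, p.Prime → p ∣ a → z < p) (hh : h < a)
    (hγ : γ.Prime) (hγ' : γ'.Prime) (hz : γ ≤ z) (hz' : γ' ≤ z) (hj : j < γ) (hj' : j' < γ')
    (hd : ((a * γ * γ' : ℕ) : ℤ) ∣ (h + j * a : ℕ) * γ' - (h + j' * a : ℕ) * γ) :
    (γ = γ' ∧ j = j') ∨ (h = 0 ∧ j = 0) := by
  have ha : (a : ℤ) ≠ 0 := by exact_mod_cast (by omega : a ≠ 0)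
  by_cases hγγ : γ = γ'
  · left
    subst hγγ
    refine ⟨rfl, ?_⟩
    have hγ0 : (γ : ℤ) ≠ 0 := by exact_mod_cast hγ.ne_zero
    have : (a * γ : ℤ) * γ ∣ (a * γ : ℤ) * (j - j') := by
      convert hd using 1 <;> push_cast <;> ring
    have h2 := (mul_dvd_mul_iff_left (mul_ne_zero ha hγ0)).1 this
    have := Int.eq_zero_of_abs_lt_dvd h2 (by rw [abs_lt]; constructor <;> omega)
    omega
  · right
    have h1 : (a : ℤ) ∣ (γ' - γ : ℤ) * h := by
      have h2 : (a : ℤ) ∣ (h + j * a : ℕ) * γ' - (h + j' * a : ℕ) * γ :=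
        Dvd.dvd.trans ⟨γ * γ', by push_cast; ring⟩ hd
      have h3 : (γ' - γ : ℤ) * h = ((h + j * a : ℕ) * γ' - (h + j' * a : ℕ) * γ) -
          a * (j * γ' - j' * γ) := by push_cast; ring
      rw [h3]
      exact h2.sub (dvd_mul_right _ _)
    have hcop : IsCoprime (a : ℤ) (γ' - γ : ℤ) := by
      rw [Int.isCoprime_iff_nat_coprime, Int.natAbs_natCast]
      refine Nat.Coprime.symm (Nat.coprime_of_dvd' fun p hp h2 h3 => ?_)
      have h4 := hrough p hp h3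
      have h5 := Nat.le_of_dvd (by omega) h2
      omega
    have h2 : (h : ℤ) = 0 := Int.eq_zero_of_abs_lt_dvd (hcop.dvd_of_dvd_mul_left h1)
      (by rw [abs_lt]; constructor <;> omega)
    have h3 : h = 0 := by omega
    subst h3
    refine ⟨rfl, ?_⟩
    have h4 : (a : ℤ) * (γ * γ') ∣ a * (j * γ' - j' * γ) := by
      convert hd using 1 <;> push_cast <;> ring
    have h5 : (γ : ℤ) ∣ j * γ' - j' * γ :=
      (dvd_mul_right _ _).trans ((mul_dvd_mul_iff_left ha).1 h4)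
    have h6 : (γ : ℤ) ∣ j * γ' := by
      have := h5.add (dvd_mul_left (γ : ℤ) j')
      simpa using this
    have h7 : γ ∣ j * γ' := by exact_mod_cast h6
    have h8 := ((Nat.coprime_primes hγ hγ').2 hγγ).dvd_of_dvd_mul_right h7
    exact Nat.eq_zero_of_dvd_of_lt h8 hj

theorem core (A : Finset ℕ) (X a z : ℕ) (K : ℝ) (hA : A ⊆ range X) (hne : A.Nonempty)
    (hK : (X : ℝ) ≤ K * A.card) (ha : 0 < a) (hrough : ∀ p, p.Prime → p ∣ a → z < p)
    (hz : 0 < z) (hX : a * z ^ 4 ≤ X) (G : Finset ℕ) (hG : ∀ γ ∈ G, γ.Prime ∧ γ ≤ z)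
    (hcard : 2 * K * (1 + 2 * K) < G.card) :
    ∃ γ ∈ G, ∃ α1 ∈ A, ∃ α2 ∈ A, ∃ α3 ∈ A, ∃ α4 ∈ A,
      γ ∣ α1 + α2 ∧ a ∣ (α1 + α2) / γ + (α3 + α4) := by
  classical
  by_contra hc
  push Not at hc
  have ha' : (a : ℂ) ≠ 0 := by exact_mod_cast ha.ne'
  set n : ℝ := (A.card : ℝ) with hn
  have hn0 : 0 < n := by rw [hn]; exact_mod_cast hne.card_pos
  let Ix : Finset (Σ _ : ℕ, ℕ) := G.sigma fun γ => range γ
  let ζ : ℕ → (Σ _ : ℕ, ℕ) → ℂ := fun h x => ex (((h + x.2 * a : ℕ) : ℂ) / (a * x.1))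
  let S : ℂ → ℂ := fun w => ∑ α ∈ A, w ^ α
  have hζ : ∀ h x, ‖ζ h x‖ = 1 := fun h x => by
    have := norm_ex (((h + x.2 * a : ℕ) : ℝ) / (a * x.1))
    simpa [ζ] using this
  have hIx : (Ix.card : ℝ) ≤ z ^ 2 := by
    have h1 : G.card ≤ z := by
      have : G ⊆ Icc 1 z := fun γ hγ => mem_Icc.2 ⟨(hG γ hγ).1.one_le, (hG γ hγ).2⟩
      simpa using Finset.card_le_card this
    have h2 : Ix.card ≤ G.card * z := by
      simp only [Ix, card_sigma, card_range]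
      exact Finset.sum_le_card_nsmul _ _ _ fun γ hγ => (hG γ hγ).2
    have : Ix.card ≤ z ^ 2 := by nlinarith
    exact_mod_cast this
  have hX' : (a : ℝ) * z ^ 4 ≤ X := by exact_mod_cast hX
  have hz1 : (1 : ℝ) ≤ z := by exact_mod_cast hz
  have hLS : ∀ h < a, ∀ R ⊆ Ix, (h = 0 → ∀ x ∈ R, x.2 ≠ 0) →
      ∑ x ∈ R, ‖S (ζ h x)‖ ^ 2 ≤ 2 * K * n ^ 2 := by
    intro h hh R hR h0
    have := large_sieve R (ζ h) (hζ h) A X hA (a * z ^ 2) (by positivity) (by
      rintro ⟨γ, j⟩ hx ⟨γ', j'⟩ hx' hne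
      have h1 := mem_sigma.1 (hR hx)
      have h2 := mem_sigma.1 (hR hx')
      simp only [mem_range] at h1 h2
      have hγ := hG γ h1.1
      have hγ' := hG γ' h2.1
      have hq : 0 < a * γ * γ' := Nat.mul_pos (Nat.mul_pos ha hγ.1.pos) hγ'.1.pos
      have h3 := geom_norm_le (((h + j * a : ℕ) : ℤ) * γ' - (h + j' * a : ℕ) * γ) _ hq (fun hd => by
        rcases sep_arith hrough hh hγ.1 hγ'.1 hγ.2 hγ'.2 h1.2 h2.2 hd with h4 | h4
        · exact hne (by rw [h4.1, h4.2])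
        · exact h0 h4.1 _ hx h4.2) X
      have h4 : ζ h ⟨γ, j⟩ * conj (ζ h ⟨γ', j'⟩) =
          ex (((((h + j * a : ℕ) : ℤ) * γ' - (h + j' * a : ℕ) * γ : ℤ) : ℂ) /
            (a * γ * γ' : ℕ)) := by
        have := conj_ex (((h + j' * a : ℕ) : ℝ) / (a * γ'))
        simp only [ζ]
        push_cast at this ⊢
        rw [this, ← ex_add]
        congr 1
        have : (γ : ℂ) ≠ 0 := by exact_mod_cast hγ.1.ne_zero
        have : (γ' : ℂ) ≠ 0 := by exact_mod_cast hγ'.1.ne_zero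
        field_simp
        ring
      rw [h4]
      refine h3.trans ?_
      have h5 : X % (a * γ * γ') ≤ a * z ^ 2 := by
        refine (Nat.mod_lt _ hq).le.trans ?_
        rw [mul_assoc, sq]
        exact Nat.mul_le_mul_left _ (Nat.mul_le_mul hγ.2 hγ'.2)
      exact_mod_cast h5)
    refine this.trans ?_
    have h1 : (R.card : ℝ) ≤ z ^ 2 := le_trans (by exact_mod_cast Finset.card_le_card hR) hIx
    have h2 : (R.card : ℝ) * (a * z ^ 2) ≤ X :=
      (mul_le_mul_of_nonneg_right h1 (by positivity)).trans (by linarith)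
    nlinarith
  have hP : ∑ h ∈ range a, ‖S (ex ((h : ℂ) / a))‖ ^ 2 ≤ 2 * K * n ^ 2 := by
    have := large_sieve (range a) (fun h => ex ((h : ℂ) / a))
      (fun h => by simpa using norm_ex ((h : ℝ) / a)) A (a * (X / a + 1))
      (hA.trans (range_subset_range.2 (Nat.lt_mul_div_succ X ha).le)) 0 le_rfl (by
        intro h hh h' hh' hne
        rw [mem_range] at hh hh'
        have h3 := geom_norm_le ((h : ℤ) - h') a ha (fun hd => hne (by
          have := Int.eq_zero_of_abs_lt_dvd hd (by rw [abs_lt]; constructor <;> omega)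
          omega)) (a * (X / a + 1))
        have h4 : ex ((h : ℂ) / a) * conj (ex ((h' : ℂ) / a)) =
            ex ((((h : ℤ) - h' : ℤ) : ℂ) / a) := by
          have := conj_ex ((h' : ℝ) / a)
          push_cast at this ⊢
          rw [this, ← ex_add]
          congr 1
          ring
        rw [h4]
        simpa using h3)
    refine this.trans ?_
    have h1 : a * (X / a + 1) ≤ 2 * X := by
      have := Nat.mul_div_le X a
      have : a ≤ X := le_trans (Nat.le_mul_of_pos_right _ (by positivity)) hX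
      nlinarith
    have h2 : ((a * (X / a + 1) : ℕ) : ℝ) ≤ 2 * X := by exact_mod_cast h1
    nlinarith
  have hzero : ∑ h ∈ range a, (∑ x ∈ Ix, S (ζ h x) ^ 2) * S (ex ((h : ℂ) / a)) ^ 2 = 0 := by
    have e : ∀ w : ℂ, S w ^ 2 = ∑ α ∈ A ×ˢ A, w ^ (α.1 + α.2) := fun w => by
      simp only [S, sq, Finset.sum_mul_sum, Finset.sum_product, pow_add]
    simp only [e, Ix, Finset.sum_sigma, Finset.sum_mul, Finset.mul_sum]
    rw [Finset.sum_comm]
    refine Finset.sum_eq_zero fun β hβ => ?_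
    rw [Finset.sum_comm]
    refine Finset.sum_eq_zero fun γ hγ => ?_
    have : ∀ h ∈ range a, ∑ j ∈ range γ, ∑ α ∈ A ×ˢ A,
        ζ h ⟨γ, j⟩ ^ (α.1 + α.2) * ex ((h : ℂ) / a) ^ (β.1 + β.2) = ∑ α ∈ A ×ˢ A, ∑ j ∈ range γ,
        ζ h ⟨γ, j⟩ ^ (α.1 + α.2) * ex ((h : ℂ) / a) ^ (β.1 + β.2) := fun h _ => Finset.sum_comm
    rw [Finset.sum_congr rfl this, Finset.sum_comm]
    refine Finset.sum_eq_zero fun α hα => ?_
    rw [mem_product] at hα hβ
    exact detect ha (hG γ hγ).1.pos fun hh => hc γ hγ _ hα.1 _ hα.2 _ hβ.1 _ hβ.2 hh.1 hh.2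
  have hS1 : S 1 = n := by simp [S, hn]
  have hex0 : ex 0 = 1 := by simp [ex]
  rw [← Finset.add_sum_erase _ _ (mem_range.2 ha),
    ← Finset.sum_filter_add_sum_filter_not Ix (fun x => x.2 = 0)] at hzero
  have h1 : ∑ x ∈ Ix with x.2 = 0, S (ζ 0 x) ^ 2 = G.card * n ^ 2 := by
    have : ∑ x ∈ Ix with x.2 = 0, S (ζ 0 x) ^ 2 = ∑ x ∈ Ix with x.2 = 0, (n : ℂ) ^ 2 :=
      Finset.sum_congr rfl fun x hx => by simp [ζ, (mem_filter.1 hx).2, hex0, hS1]
    rw [this, Finset.sum_const, nsmul_eq_mul]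
    congr 2
    refine Finset.card_bij (fun x _ => x.1) (fun x hx => (mem_sigma.1 (mem_filter.1 hx).1).1) ?_ ?_
    · rintro ⟨γ, j⟩ hx ⟨γ', j'⟩ hx' h
      have e1 := (mem_filter.1 hx).2
      have e2 := (mem_filter.1 hx').2
      simp only at h e1 e2
      rw [h, e1, e2]
    · intro γ hγ
      exact ⟨⟨γ, 0⟩, mem_filter.2 ⟨mem_sigma.2 ⟨hγ, mem_range.2 (hG γ hγ).1.pos⟩, rfl⟩, rfl⟩
  have h2 : ‖∑ x ∈ Ix with ¬ x.2 = 0, S (ζ 0 x) ^ 2‖ ≤ 2 * K * n ^ 2 := by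
    refine (norm_sum_le _ _).trans ?_
    simp only [norm_pow]
    exact hLS 0 ha _ (filter_subset _ _) fun _ x hx => (mem_filter.1 hx).2
  have hK0 : 0 ≤ K := by
    by_contra h
    have : (0 : ℝ) ≤ X := by positivity
    nlinarith
  have h3 : ‖∑ h ∈ (range a).erase 0, (∑ x ∈ Ix, S (ζ h x) ^ 2) * S (ex ((h : ℂ) / a)) ^ 2‖ ≤
      2 * K * n ^ 2 * (2 * K * n ^ 2) := by
    refine (norm_sum_le _ _).trans ?_
    calc _ ≤ ∑ h ∈ (range a).erase 0, 2 * K * n ^ 2 * ‖S (ex ((h : ℂ) / a))‖ ^ 2 := by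
          refine Finset.sum_le_sum fun h hh => ?_
          rw [norm_mul, norm_pow]
          refine mul_le_mul_of_nonneg_right ((norm_sum_le _ _).trans ?_) (by positivity)
          simp only [norm_pow]
          exact hLS h (mem_range.1 (mem_of_mem_erase hh)) _ subset_rfl
            fun h0 => absurd h0 (ne_of_mem_erase hh)
      _ ≤ _ := by
          rw [← Finset.mul_sum]
          refine mul_le_mul_of_nonneg_left (le_trans ?_ hP) (by positivity)
          exact Finset.sum_le_sum_of_subset_of_nonneg (erase_subset _ _) fun _ _ _ => by positivity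
  rw [h1] at hzero
  simp only [Nat.cast_zero, zero_div, hex0, hS1] at hzero
  generalize ∑ x ∈ Ix with ¬ x.2 = 0, S (ζ 0 x) ^ 2 = U at *
  generalize ∑ h ∈ (range a).erase 0, (∑ x ∈ Ix, S (ζ h x) ^ 2) * S (ex ((h : ℂ) / a)) ^ 2 = V at *
  have h4 : ((G.card * n ^ 2 * n ^ 2 : ℝ) : ℂ) = -(U * (n ^ 2 : ℝ)) - V := by
    push_cast; linear_combination hzero
  have h5 : G.card * n ^ 2 * n ^ 2 ≤ 2 * K * n ^ 2 * n ^ 2 + 2 * K * n ^ 2 * (2 * K * n ^ 2) := by
    calc G.card * n ^ 2 * n ^ 2 = ‖((G.card * n ^ 2 * n ^ 2 : ℝ) : ℂ)‖ := by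
          rw [norm_real, Real.norm_of_nonneg (by positivity)]
      _ ≤ ‖U‖ * n ^ 2 + ‖V‖ := by
          rw [h4]
          refine (norm_sub_le _ _).trans ?_
          rw [norm_neg, norm_mul, norm_real, Real.norm_of_nonneg (by positivity)]
      _ ≤ _ := by gcongr
  have h6 : 0 < n ^ 2 * n ^ 2 := by positivity
  nlinarith

end Crest.Agent.R19
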