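import Crest.Agent.R16.Blocks

/-! A lower-bound sieve: one residue class removed modulo every odd prime up to `z`. -/

set_option autoImplicit false

namespace Crest.Agent.R19

open Finset Crest.Agent.R16

noncomputable def q0 (I : ℕ) (i : Fin I) (p : BB 0 I i) : ℝ := 1 / ((p : ℕ) : ℝ)

def pr {I : ℕ} (x : Σ i : Fin I, BB 0 I i) : ℕ := x.2.1

theorem pr_prime {I : ℕ} (x : Σ i : Fin I, BB 0 I i) : (pr x).Prime := (mem_blk.1 x.2.2).2.2

theorem pr_inj {I : ℕ} : Function.Injective (pr (I := I)) := by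
  rintro ⟨i, p⟩ ⟨i', p'⟩ h
  simp only [pr] at h
  obtain ⟨-, ⟨h2, h3⟩, -⟩ := mem_blk.1 p.2
  obtain ⟨-, ⟨h2', h3'⟩, -⟩ := mem_blk.1 p'.2
  have hii : i = i' := by
    by_contra hne
    rcases lt_or_gt_of_ne hne with hlt | hlt
    · have := Y_mono (show (i : ℕ) + 1 ≤ i' from hlt); omega
    · have := Y_mono (show (i' : ℕ) + 1 ≤ i from hlt); omega
  subst hii
  rw [Subtype.ext h]

theorem exists_blk {I p : ℕ} (hp : p.Prime) (h2 : 2 < p) (hI : p ≤ Y I) :
    ∃ i : Fin I, p ∈ blk 0 i := by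
  induction I with
  | zero => simp [Y] at hI; omega
  | succ I ih =>
    by_cases h : p ≤ Y I
    · obtain ⟨i, hi⟩ := ih h
      exact ⟨i.castSucc, hi⟩
    · exact ⟨Fin.last I, mem_blk.2 ⟨Nat.zero_le _, ⟨by simpa using h, hI⟩, hp⟩⟩

theorem q0_bounds (I : ℕ) (i : Fin I) (p : BB 0 I i) : 0 ≤ q0 I i p ∧ q0 I i p ≤ 1 / 2 :=
  ⟨by unfold q0; positivity, one_div_prime_le (mem_blk.1 p.2).2.2⟩

theorem sum_q0_le (I : ℕ) (i : Fin I) : ∑ p, q0 I i p ≤ 4 := by
  unfold q0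
  rw [Finset.sum_coe_sort (blk 0 i) (fun p => 1 / (p : ℝ)), blk, if_pos (Nat.zero_le _)]
  exact block_sum_le i

def cfr (I : ℕ) (r : ℕ → ℕ) (v : ℕ) : Om 0 I := fun _ p => decide (v ≡ r p [MOD (p : ℕ)])

theorem mono_disc (I : ℕ) (r : ℕ → ℕ) (U : ℕ) (A : Finset (Unit × Σ i : Fin I, BB 0 I i)) :
    |∑ v ∈ range U, ind (coord fun (_ : Unit) (ω : Om 0 I) => ω) A (cfr I r v) -
      U * Ex (w1 (q0 I)) (ind (coord fun (_ : Unit) (ω : Om 0 I) => ω) A)| ≤ 1 := by
  classical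
  have hE : Ex (w1 (q0 I)) (ind (coord fun (_ : Unit) (ω : Om 0 I) => ω) A) =
      1 / ((∏ x ∈ A, pr x.2 : ℕ) : ℝ) := by
    have h1 : ind (coord fun (_ : Unit) (ω : Om 0 I) => ω) A = fun ω => ∏ i,
        (fun (i : Fin I) (η : BB 0 I i → Bool) => ∏ p, (fun (p : BB 0 I i) (b : Bool) =>
          if ((), ⟨i, p⟩) ∈ A then (if b = true then (1 : ℝ) else 0) else 1) p (η p)) i (ω i) := by
      funext ω
      simp only [ind, coord]
      split_ifs with h
      · refine (Finset.prod_eq_one fun i _ => Finset.prod_eq_one fun p _ => ?_).symm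
        split_ifs with h1 h2
        · rfl
        · exact absurd (h _ h1) h2
        · rfl
      · push Not at h
        obtain ⟨⟨⟨⟩, i, p⟩, hx, hx'⟩ := h
        refine (Finset.prod_eq_zero (Finset.mem_univ i)
          (Finset.prod_eq_zero (Finset.mem_univ p) ?_)).symm
        simp only at hx'
        rw [if_pos hx, if_neg hx']
    rw [h1, w1, Ex_piW_prod (fun i => bW (q0 I i)) (fun (i : Fin I) (η : BB 0 I i → Bool) =>
      ∏ p, (fun (p : BB 0 I i) (b : Bool) =>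
          if ((), ⟨i, p⟩) ∈ A then (if b = true then (1 : ℝ) else 0) else 1) p (η p))]
    have h2 : ∀ i : Fin I, Ex (bW (q0 I i)) (fun η : BB 0 I i → Bool =>
        ∏ p, (fun (p : BB 0 I i) (b : Bool) =>
          if ((), ⟨i, p⟩) ∈ A then (if b = true then (1 : ℝ) else 0) else 1) p (η p)) =
        ∏ p : BB 0 I i, if ((), ⟨i, p⟩) ∈ A then 1 / (pr ⟨i, p⟩ : ℝ) else 1 := by
      intro i
      rw [bW, Ex_piW_prod (fun p => bern (q0 I i p)) (fun (p : BB 0 I i) (b : Bool) =>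
          if ((), ⟨i, p⟩) ∈ A then (if b = true then (1 : ℝ) else 0) else 1)]
      refine Finset.prod_congr rfl fun p _ => ?_
      split_ifs <;> simp [Ex, bern, q0, pr]
    simp only [h2]
    rw [← Fintype.prod_sigma (fun x : Σ i : Fin I, BB 0 I i =>
      if ((), x) ∈ A then 1 / (pr x : ℝ) else 1)]
    push_cast
    rw [← Finset.prod_const_one (s := A), ← Finset.prod_div_distrib, Finset.prod_const_one,
      ← Finset.prod_filter]
    refine Finset.prod_bij (fun x _ => ((), x)) (by simp) (by simp) ?_ (by simp)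
    rintro ⟨⟨⟩, x⟩ hx
    exact ⟨x, by simpa using hx, rfl⟩
  rw [hE]
  have hpair : Set.Pairwise (A : Set (Unit × Σ i : Fin I, BB 0 I i))
      (Function.onFun Nat.Coprime fun x => pr x.2) := by
    intro x _ y _ hxy
    have : pr x.2 ≠ pr y.2 := fun h => hxy (Prod.ext rfl (pr_inj h))
    exact (Nat.coprime_primes (pr_prime _) (pr_prime _)).2 this
  obtain ⟨t0, ht0⟩ := Nat.chineseRemainderOfFinset (fun x => r (pr x.2)) (fun x => pr x.2) A
    (fun x _ => (pr_prime x.2).ne_zero) hpair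
  have hiff : ∀ t, (∀ x ∈ A, coord (fun (_ : Unit) (ω : Om 0 I) => ω) x.1 x.2 (cfr I r t) = true) ↔
      t ≡ t0 [MOD ∏ x ∈ A, pr x.2] := by
    intro t
    simp only [coord, cfr, decide_eq_true_eq]
    constructor
    · intro h
      have h' : ∀ x ∈ A, ((pr x.2 : ℕ) : ℤ) ∣ (t0 : ℤ) - t := fun x hx =>
        Nat.modEq_iff_dvd.1 ((h x hx).trans (ht0 x hx).symm)
      rw [Nat.modEq_iff_dvd]
      push_cast
      refine Finset.prod_dvd_of_coprime (fun x hx y hy hxy => ?_) h'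
      exact Nat.isCoprime_iff_coprime.2 (hpair hx hy hxy)
    · intro h x hx
      exact (h.of_dvd (Finset.dvd_prod_of_mem (fun x => pr x.2) hx)).trans (ht0 x hx)
  simp only [ind, hiff]
  rw [Finset.sum_boole]
  exact abs_count_sub_le U _ t0 (Finset.prod_pos fun x _ => (pr_prime x.2).pos)

section block
variable {β : Type*} [Fintype β] [DecidableEq β] {q : β → ℝ}

theorem Ex_brun_sq_ge (h0 : ∀ p, 0 ≤ q p) (h1 : ∀ p, q p ≤ 1 / 2) (h4 : ∑ p, q p ≤ 4) (k : ℕ) :
    Real.exp (-8) ≤ Ex (bW q) (fun η => brun k η ^ 2) := by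
  have h2 := exp_le_prod_one_sub Finset.univ (fun p _ => h0 p) (fun p _ => h1 p)
  rw [← Ex_ind_zero] at h2
  refine le_trans (Real.exp_le_exp.2 (by linarith)) (h2.trans ?_)
  refine Ex_mono (bW_isProb h0 h1).1 fun η => ?_
  split_ifs with h
  · simp [brun, h]
  · positivity

theorem Ex_brun_sq_cnt_le (h0 : ∀ p, 0 ≤ q p) (h1 : ∀ p, q p ≤ 1 / 2) (h4 : ∑ p, q p ≤ 4) (k : ℕ) :
    Ex (bW q) (fun η => brun k η ^ 2 * cnt η) ≤ Real.exp (-k) * Real.exp (4 * Real.exp 6) := by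
  have h2 : ∀ η : β → Bool, brun k η ^ 2 * cnt η ≤ Real.exp (-k) * Real.exp (6 * cnt η) := by
    intro η
    have h3 := abs_brun_pow_le k η (m := 2) (by norm_num) (by norm_num)
    rw [sq_abs, psi] at h3
    split_ifs at h3 with h
    · rw [h, mul_zero]; positivity
    · have h5 := Real.add_one_le_exp (cnt η)
      calc brun k η ^ 2 * cnt η ≤ Real.exp (5 * cnt η - k) * Real.exp (cnt η) :=
            mul_le_mul (by linarith) (by linarith) (cnt_nonneg η) (Real.exp_pos _).le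
        _ = _ := by rw [← Real.exp_add, ← Real.exp_add]; congr 1; ring
  refine (Ex_mono (bW_isProb h0 h1).1 h2).trans ?_
  rw [Ex_const_mul]
  refine mul_le_mul_of_nonneg_left ((Ex_exp_cnt h0 h1 6).trans (Real.exp_le_exp.2 ?_))
    (Real.exp_pos _).le
  have hs0 : 0 ≤ ∑ p, q p := Finset.sum_nonneg fun p _ => h0 p
  nlinarith [Real.exp_pos 6]

end block

noncomputable def FF (k I : ℕ) (ω : Om 0 I) : ℝ :=
  nuF (kk k 0 I) ω * (1 - ∑ i, cnt (ω i))

theorem Ex_FF_ge {k : ℕ} (hk : Real.exp (-k) * (Real.exp (4 * Real.exp 6) * Real.exp 8) ≤ 1 / 2)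
    (I : ℕ) : Real.exp (-8) ^ I / 2 ≤ Ex (w1 (q0 I)) (FF k I) := by
  have h0 := fun i p => (q0_bounds I i p).1
  have h1 := fun i p => (q0_bounds I i p).2
  set E : Fin I → ℝ := fun i => Ex (bW (q0 I i)) (fun η => brun (kk k 0 I i) η ^ 2) with hE
  have hE1 : ∀ i, Real.exp (-8) ≤ E i := fun i => Ex_brun_sq_ge (h0 i) (h1 i) (sum_q0_le I i) _
  have hE0 : ∀ i, 0 ≤ E i := fun i => (Real.exp_pos _).le.trans (hE1 i)
  have e1 : FF k I = fun ω => ∏ i, (fun (i : Fin I) (η : BB 0 I i → Bool) =>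
      brun (kk k 0 I i) η ^ 2) i (ω i) - ∑ j, ∏ i, (fun (i : Fin I) (η : BB 0 I i → Bool) =>
      brun (kk k 0 I i) η ^ 2 * if i = j then cnt η else 1) i (ω i) := by
    funext ω
    simp only [FF, nuF, Finset.prod_mul_distrib, Finset.prod_ite_eq', Finset.mem_univ, if_true,
      Finset.prod_pow, mul_sub, mul_one, Finset.mul_sum]
  have e2 : ∀ j, Ex (w1 (q0 I)) (fun ω => ∏ i, (fun (i : Fin I) (η : BB 0 I i → Bool) =>
      brun (kk k 0 I i) η ^ 2 * if i = j then cnt η else 1) i (ω i)) ≤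
      (∏ i, E i) * (Real.exp (-(kk k 0 I j : ℝ)) * (Real.exp (4 * Real.exp 6) * Real.exp 8)) := by
    intro j
    rw [w1, Ex_piW_prod (fun i => bW (q0 I i)) (fun (i : Fin I) (η : BB 0 I i → Bool) =>
      brun (kk k 0 I i) η ^ 2 * if i = j then cnt η else 1)]
    rw [← Finset.prod_ite_eq' Finset.univ j (fun _ =>
      Real.exp (-(kk k 0 I j : ℝ)) * (Real.exp (4 * Real.exp 6) * Real.exp 8)) |>.trans
        (if_pos (Finset.mem_univ j)), ← Finset.prod_mul_distrib]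
    refine Finset.prod_le_prod (fun i _ => Ex_nonneg (bW_isProb (h0 i) (h1 i)).1 fun η => ?_)
      fun i _ => ?_
    · have := cnt_nonneg η
      split_ifs <;> positivity
    · split_ifs with h
      · subst h
        refine (Ex_brun_sq_cnt_le (h0 i) (h1 i) (sum_q0_le I i) _).trans ?_
        have h3 : Real.exp (-8) * Real.exp 8 = 1 := by rw [← Real.exp_add]; simp
        have h4 : 0 ≤ Real.exp (-(kk k 0 I i : ℝ)) * Real.exp (4 * Real.exp 6) * Real.exp 8 := by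
          positivity
        have := mul_le_mul_of_nonneg_right (hE1 i) h4
        have h5 : Real.exp (-(kk k 0 I i : ℝ)) * Real.exp (4 * Real.exp 6) =
            Real.exp (-8) * (Real.exp (-(kk k 0 I i : ℝ)) * Real.exp (4 * Real.exp 6) *
              Real.exp 8) := by
          linear_combination (-(Real.exp (-(kk k 0 I i : ℝ)) * Real.exp (4 * Real.exp 6))) * h3
        linarith
      · simp [hE]
  rw [e1, Ex_sub, Ex_sum, w1, Ex_piW_prod (fun i => bW (q0 I i))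
    (fun (i : Fin I) (η : BB 0 I i → Bool) => brun (kk k 0 I i) η ^ 2)]
  have e3 := Finset.sum_le_sum fun j (_ : j ∈ Finset.univ) => e2 j
  rw [← Finset.mul_sum, ← Finset.sum_mul] at e3
  have e4 := sum_exp_kk_le (k := k) (L := 0) (I := I) (Nat.zero_le _)
  have e5 : Real.exp (-8) ^ I ≤ ∏ i, E i := by
    have := Finset.prod_le_prod (s := Finset.univ) (fun (i : Fin I) _ => (Real.exp_pos (-8)).le)
      (fun i _ => hE1 i)
    simpa using this
  have e6 : (∑ j : Fin I, Real.exp (-(kk k 0 I j : ℝ))) *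
      (Real.exp (4 * Real.exp 6) * Real.exp 8) ≤ 1 / 2 := by
    refine le_trans (mul_le_mul_of_nonneg_right e4 (by positivity)) ?_
    simpa using hk
  have e7 : 0 ≤ ∏ i, E i := Finset.prod_nonneg fun i _ => hE0 i
  have e8 := mul_le_mul_of_nonneg_left e6 e7
  simp only [w1] at e3
  linarith

theorem lev_FF (k I : ℕ) : Lev (monos (coord fun (_ : Unit) (ω : Om 0 I) => ω)) (FF k I)
    ((2 : ℝ) ^ ((4 * k + 11) * 2 ^ I)) := by
  have hφ := fun i p => coord_lev' (fun (_ : Unit) (ω : Om 0 I) => ω) () i p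
  have h1 := (lev_nuF (φ := fun ω => ω) hφ (kk k 0 I)).mul ((Lev.const 1).sub
    (Lev.sum Finset.univ fun i _ => lev_cnt (φ := fun ω : Om 0 I => ω i) (hφ i)))
  refine h1.mono ?_
  have h2 := prod_card_pow_le 0 (k := k) (L := 0) (I := I) (j := I) (by omega) le_rfl
  rw [Finset.filter_true_of_mem (fun i _ => i.2)] at h2
  have h3 : ∀ i : Fin I, (Fintype.card (BB 0 I i) : ℝ) ≤ 2 ^ 2 ^ I := fun i => by
    have := one_add_card_le 0 I i
    have h4 : (2 : ℝ) ^ 2 ^ ((i : ℕ) + 1) ≤ 2 ^ 2 ^ I :=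
      pow_le_pow_right₀ (by norm_num) (Nat.pow_le_pow_right (by norm_num) i.2)
    linarith
  have h4 : ∑ i : Fin I, (Fintype.card (BB 0 I i) : ℝ) ≤ I * 2 ^ 2 ^ I := by
    have := Finset.sum_le_sum fun i (_ : i ∈ Finset.univ) => h3 i
    simpa using this
  have h5 : (I : ℝ) ≤ 2 ^ 2 ^ I := by
    have := (Nat.lt_two_pow_self (n := I)).trans (Nat.lt_two_pow_self (n := 2 ^ I))
    exact_mod_cast this.le
  have h6 : (2 : ℝ) ≤ 2 ^ 2 ^ I := le_self_pow₀ (by norm_num) (by positivity)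
  have e : (2 : ℝ) ^ ((4 * k + 11) * 2 ^ I) =
      (2 ^ ((2 * k + 4) * 2 ^ I)) ^ 2 * (2 ^ 2 ^ I) ^ 3 := by
    rw [← pow_mul, ← pow_mul, ← pow_add]; congr 1; ring
  rw [e, abs_one]
  refine mul_le_mul (pow_le_pow_left₀ (by positivity) h2 2) ?_ (by positivity) (by positivity)
  generalize (2 : ℝ) ^ 2 ^ I = z at *
  have h7 : (I : ℝ) * z ≤ z * z := mul_le_mul_of_nonneg_right h5 (by linarith)
  have h8 : 2 * (z * z) ≤ z ^ 3 := by nlinarith
  nlinarith

theorem sieve : ∃ C : ℕ, ∀ (I : ℕ) (r : ℕ → ℕ), ∃ v < 2 ^ (C * 2 ^ I),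
    ∀ p, p.Prime → 2 < p → p ≤ Y I → ¬ v ≡ r p [MOD p] := by
  obtain ⟨k, hk⟩ : ∃ k : ℕ,
      Real.exp (-k) * (Real.exp (4 * Real.exp 6) * Real.exp 8) ≤ 1 / 2 := by
    obtain ⟨k, hk⟩ := exists_nat_ge (2 * (Real.exp (4 * Real.exp 6) * Real.exp 8))
    refine ⟨k, ?_⟩
    have h1 := Real.add_one_le_exp (k : ℝ)
    have h2 : Real.exp (-k) * Real.exp k = 1 := by rw [← Real.exp_add]; simp
    have h3 := Real.exp_pos (-k : ℝ)
    nlinarith
  refine ⟨4 * k + 25, fun I r => ?_⟩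
  by_contra hc
  push Not at hc
  set U := 2 ^ ((4 * k + 25) * 2 ^ I) with hU
  let Δ : (Om 0 I → ℝ) →ₗ[ℝ] ℝ :=
    { toFun := fun f => ∑ v ∈ range U, f (cfr I r v) - U * Ex (w1 (q0 I)) f
      map_add' := fun f g => by
        have := Ex_add (w := w1 (q0 I)) f g
        simp only [Pi.add_apply, Finset.sum_add_distrib]
        rw [show (f + g) = fun a => f a + g a from rfl, this]; ring
      map_smul' := fun c f => by
        have := Ex_const_mul (w := w1 (q0 I)) c f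
        simp only [Pi.smul_apply, smul_eq_mul, RingHom.id_apply, ← Finset.mul_sum]
        rw [show (c • f) = fun a => c * f a from rfl, this]; ring }
  have h1 := lev_FF k I Δ 1 (by
    intro m hm
    obtain ⟨A, rfl⟩ := mem_monos.1 hm
    exact mono_disc I r U A)
  have h2 : ∑ v ∈ range U, FF k I (cfr I r v) ≤ 0 := by
    refine Finset.sum_nonpos fun v hv => ?_
    obtain ⟨p, hp, h2, hI, hv⟩ := hc v (Finset.mem_range.1 hv)
    obtain ⟨i, hi⟩ := exists_blk hp h2 hI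
    refine mul_nonpos_of_nonneg_of_nonpos (nuF_nonneg _ _) ?_
    have h3 : (1 : ℝ) ≤ cnt (cfr I r v i) := by
      have := Finset.single_le_sum (f := fun p => if cfr I r v i p = true then (1 : ℝ) else 0)
        (fun p _ => by positivity) (Finset.mem_univ ⟨p, hi⟩)
      rw [if_pos (by simpa [cfr] using hv)] at this
      exact this
    have h4 := Finset.single_le_sum (f := fun i => cnt (cfr I r v i)) (fun i _ => cnt_nonneg _)
      (Finset.mem_univ i)
    linarith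
  have h3 := Ex_FF_ge hk I
  simp only [Δ, LinearMap.coe_mk, AddHom.coe_mk, mul_one] at h1
  have h4 := (abs_le.1 h1).1
  have h5 : ((2 : ℝ) ^ (12 * 2 ^ I))⁻¹ ≤ Real.exp (-8) ^ I := by
    have e1 : ((2 : ℝ) ^ 12)⁻¹ ≤ Real.exp (-8) := by
      rw [Real.exp_neg]
      refine inv_anti₀ (Real.exp_pos _) ?_
      have : Real.exp 8 = Real.exp 1 ^ 8 := by rw [← Real.exp_nat_mul]; norm_num
      rw [this]
      calc Real.exp 1 ^ 8 ≤ 2.7182818286 ^ 8 :=
            pow_le_pow_left₀ (Real.exp_pos _).le Real.exp_one_lt_d9.le 8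
        _ ≤ _ := by norm_num
    calc ((2 : ℝ) ^ (12 * 2 ^ I))⁻¹ ≤ ((2 : ℝ) ^ (12 * I))⁻¹ :=
          inv_anti₀ (by positivity) (pow_le_pow_right₀ (by norm_num)
            (Nat.mul_le_mul_left _ (Nat.lt_two_pow_self (n := I)).le))
      _ = (((2 : ℝ) ^ 12)⁻¹) ^ I := by rw [pow_mul, inv_pow]
      _ ≤ _ := pow_le_pow_left₀ (by positivity) e1 I
  have h6 : (U : ℝ) = 2 ^ ((4 * k + 11) * 2 ^ I) * 2 ^ (12 * 2 ^ I) * 2 ^ (2 * 2 ^ I) := by
    rw [hU, ← pow_add, ← pow_add]; push_cast; congr 1; ring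
  have h7 : (4 : ℝ) ≤ 2 ^ (2 * 2 ^ I) := by
    rw [show (4 : ℝ) = 2 ^ 2 by norm_num]
    exact pow_le_pow_right₀ (by norm_num) (by have := Nat.one_le_two_pow (n := I); omega)
  have h8 : (U : ℝ) * (((2 : ℝ) ^ (12 * 2 ^ I))⁻¹ / 2) ≤ U * Ex (w1 (q0 I)) (FF k I) :=
    mul_le_mul_of_nonneg_left (by linarith) (by positivity)
  have h9 : (U : ℝ) * (((2 : ℝ) ^ (12 * 2 ^ I))⁻¹ / 2) =
      2 ^ ((4 * k + 11) * 2 ^ I) * 2 ^ (2 * 2 ^ I) / 2 := by
    rw [h6]; field_simp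
  have h10 : (0 : ℝ) < 2 ^ ((4 * k + 11) * 2 ^ I) := by positivity
  nlinarith

/-- for every `q` some small even `u` makes `q u - 1` free of primes up to `Y I` -/
theorem exists_rough : ∃ C : ℕ, ∀ (I q : ℕ), 1 ≤ q → ∃ u a, 0 < u ∧ u ≤ 2 ^ (C * 2 ^ I) ∧
    q * u = a + 1 ∧ 0 < a ∧ ∀ p, p.Prime → p ∣ a → Y I < p := by
  classical
  obtain ⟨C, hC⟩ := sieve
  refine ⟨C + 1, fun I q hq => ?_⟩
  obtain ⟨v, hv, h⟩ := hC I fun p =>
    if h : ∃ v0, q * (2 * (v0 + 1)) ≡ 1 [MOD p] then h.choose else 0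
  have h1 : 2 ≤ q * (2 * (v + 1)) := by nlinarith
  refine ⟨2 * (v + 1), q * (2 * (v + 1)) - 1, by omega, ?_, by omega, by omega, fun p hp hd => ?_⟩
  · rw [add_mul, one_mul, pow_add]
    have : 2 ≤ 2 ^ 2 ^ I := by
      calc 2 = 2 ^ 1 := rfl
        _ ≤ _ := Nat.pow_le_pow_right (by norm_num) Nat.one_le_two_pow
    nlinarith
  · by_contra hle
    push Not at hle
    have h2 : q * (2 * (v + 1)) ≡ 1 [MOD p] :=
      ((Nat.modEq_iff_dvd' (by omega)).2 hd).symm
    have hcop : Nat.Coprime (q * 2) p := by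
      have := Nat.coprime_of_mul_modEq_one (v + 1) (n := p) (a := q * 2) (by rwa [mul_assoc])
      exact this
    have hp2 : 2 < p := by
      rcases hp.two_le.lt_or_eq with h3 | h3
      · exact h3
      · subst h3; exact absurd hcop (by simp)
    have hex : ∃ v0, q * (2 * (v0 + 1)) ≡ 1 [MOD p] := ⟨v, h2⟩
    apply h p hp hp2 hle
    rw [dif_pos hex]
    have h3 := h2.trans hex.choose_spec.symm
    rw [← mul_assoc, ← mul_assoc] at h3
    exact Nat.ModEq.add_right_cancel' 1 (Nat.ModEq.cancel_left_of_coprime hcop.symm h3)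

end Crest.Agent.R19
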