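import Crest.Agent.R19.Digits
import Crest.Agent.R19.Fourier
import Crest.Agent.R19.Sieve

/-! Assembly: every small numerator over the special modulus is a short sum of unit fractions. -/

set_option autoImplicit false

namespace Crest.Agent.R19

open Finset Crest.Agent.R16

theorem cube_le {t : ℕ} (ht : 10 ≤ t) : t ^ 3 ≤ 2 ^ t := by
  induction t, ht using Nat.le_induction with
  | base => norm_num
  | succ t ht ih =>
    rw [pow_succ 2]
    have : 10 * t ^ 2 ≤ t ^ 3 := by nlinarith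
    have : 10 * t ≤ t ^ 2 := by nlinarith
    nlinarith

theorem params {S t T : ℕ} (hS : 1 ≤ S) (ht : 2000 * S + 10 ≤ t) (hT3 : t ^ 3 ≤ T) :
    ∃ ω, 4 * t * ω ≤ T * T ∧ 8 * t * ω * (ω + 2 * t) ≤ T * T ∧
      S * T * 4 ≤ (ω + 2 * t) * (128 * S * t) ∧
      2 * (2 * t * ω + (2 * t + 1) * (128 * S * t)) + t + 5 ≤ T := by
  have hT2 : 2000 * (S * t ^ 2) ≤ T := le_trans (by nlinarith) hT3
  have ht2 : 10 * t ≤ t ^ 2 := by nlinarith
  have hSt : t ^ 2 ≤ S * t ^ 2 := Nat.le_mul_of_pos_left _ hS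
  obtain ⟨ω, hω1, hω2⟩ : ∃ ω, 16 * t * ω ≤ T ∧ T < 16 * t * (ω + 1) :=
    ⟨T / (16 * t), Nat.mul_div_le _ _, Nat.lt_mul_div_succ _ (by omega)⟩
  have hω3 : 1 ≤ ω := by
    by_contra h
    obtain rfl : ω = 0 := by omega
    omega
  have hω4 : T ≤ 32 * t * ω := by nlinarith
  have hωT : ω + 2 * t ≤ T := by nlinarith
  refine ⟨ω, by nlinarith, Nat.mul_le_mul (by nlinarith) hωT, ?_, ?_⟩
  · calc S * T * 4 ≤ S * (32 * t * ω) * 4 := by gcongr
      _ = ω * (128 * S * t) := by ring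
      _ ≤ _ := Nat.mul_le_mul_right _ (by omega)
  · have : S * t ≤ S * t ^ 2 := Nat.mul_le_mul_left _ (by omega)
    nlinarith

theorem key : ∃ s k0 t0 : ℕ, ∀ t, t0 ≤ t → ∃ N X : ℕ, 0 < N ∧ N ≤ X ∧ Y (s + t) ^ 4 ≤ X ∧
    ∀ q, q * Y (s + t) ≤ X → ∀ m, 0 < m → Rep (k0 * t) (q / (N * m : ℕ)) := by
  obtain ⟨C, hC⟩ := exists_rough
  obtain ⟨S, hS⟩ : ∃ S, S = 2 ^ (C + 4) := ⟨_, rfl⟩
  have hCS : C + 4 ≤ S := hS ▸ Nat.lt_two_pow_self.le
  refine ⟨C + 4, 4 * (128 * S) + 1, 2000 * S + 10, fun t ht => ?_⟩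
  obtain ⟨T, hT⟩ : ∃ T, T = 2 ^ t := ⟨_, rfl⟩
  have hT3 : t ^ 3 ≤ T := hT ▸ cube_le (by omega)
  obtain ⟨ω, hω1, hω2, hω3, hω4⟩ := params (by omega) ht hT3
  have hTT : 2 ^ (2 * t) = T * T := by rw [hT, ← pow_add]; congr 1; ring
  obtain ⟨k, hk⟩ : ∃ k, k = 128 * S * t := ⟨_, rfl⟩
  rw [← hk] at hω3 hω4
  have hk0 : 0 < k := hk ▸ Nat.mul_pos (by omega) (by omega)
  obtain ⟨N0, N, A, hN0, hN0', hN, hNX, hA, hA'⟩ := dense_set (t := t) (ω := ω) (by omega)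
    (hTT ▸ hω1) (hTT ▸ hω2) k
  have hY : Y (C + 4 + t) = 2 ^ (S * T) := by rw [Y, pow_add, hS, hT]
  have hYt : Y t = 2 ^ T := by rw [Y, hT]
  obtain ⟨X, hX⟩ : ∃ X, X = N0 * 2 ^ ((ω + 2 * t) * k) := ⟨_, rfl⟩
  rw [← hX] at hNX
  refine ⟨N, X, hN, hNX, ?_, fun q hq m hm => ?_⟩
  · rw [hY, ← pow_mul, hX]
    exact le_trans (Nat.pow_le_pow_right (by norm_num) hω3) (Nat.le_mul_of_pos_left _ hN0)
  rcases Nat.eq_zero_or_pos q with rfl | hq0
  · exact (Rep.zero _).congr (by simp)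
  obtain ⟨u, a, hu, hu', hqu, ha, hrough⟩ := hC t q hq0
  rw [hYt] at hrough
  rw [← hT] at hu'
  obtain ⟨E, hE⟩ : ∃ E, E = 2 * t * ω + (2 * t + 1) * k := ⟨_, rfl⟩
  rw [← hE] at hω4
  have hne : A.Nonempty := by
    rw [← card_pos]
    by_contra h
    rw [show A.card = 0 by omega] at hA
    exact absurd hA (by simp)
  obtain ⟨γ, hγ, α1, h1, α2, h2, α3, h3, α4, h4, ⟨w, hw⟩, hd⟩ := core A X a (2 ^ T) (2 ^ E)
    (fun α hα => mem_range.2 ((hA' α hα).1.trans_le hNX)) hne (by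
      have : X ≤ 2 ^ E * A.card := by
        calc X = N0 * 2 ^ (2 * t * k) * 2 ^ (ω * k) := by rw [hX]; ring
          _ ≤ 2 ^ (2 * t * ω) * 2 ^ (2 * t * k) * (2 ^ k * A.card) := by gcongr
          _ = _ := by rw [hE]; ring
      exact_mod_cast this) ha hrough (by positivity) (by
      refine le_trans ?_ hq
      calc a * (2 ^ T) ^ 4 ≤ q * 2 ^ (C * T) * (2 ^ T) ^ 4 :=
            Nat.mul_le_mul_right _ (le_trans (by omega) (Nat.mul_le_mul_left q hu'))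
        _ = q * 2 ^ ((C + 4) * T) := by ring
        _ ≤ _ := by rw [hY]; gcongr; norm_num)
    (Nat.primesLE (2 ^ T)) (fun p hp => (Nat.mem_primesLE.1 hp).symm) (by
      have h5 := pi_ge (w := T) (by omega)
      have h7 : 2 * 2 ^ E * (1 + 2 * 2 ^ E) < (Nat.primesLE (2 ^ T)).card := by
        refine lt_of_mul_lt_mul_left (a := 2 * T) (lt_of_lt_of_le ?_ h5) (Nat.zero_le _)
        have h8 : 1 ≤ 2 ^ E := Nat.one_le_two_pow
        calc 2 * T * (2 * 2 ^ E * (1 + 2 * 2 ^ E)) ≤ 2 * T * (2 * 2 ^ E * (4 * 2 ^ E)) := by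
              gcongr; omega
          _ = 2 ^ (2 * E + t + 4) := by rw [hT]; ring
          _ < _ := Nat.pow_lt_pow_right (by norm_num) (by omega)
      exact_mod_cast h7)
  have hγ0 : 0 < γ := (Nat.mem_primesLE.1 hγ).2.pos
  rw [hw, Nat.mul_div_cancel_left _ hγ0] at hd
  obtain ⟨m', hm'⟩ := hd
  have hm0 : 0 < m' := by
    have := (hA' α3 h3).2.1 hk0
    refine Nat.pos_of_ne_zero ?_
    rintro rfl
    omega
  have r1 := (hA' α1 h1).2.2 (m * u * m' * γ) (by positivity)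
  have r2 := (hA' α2 h2).2.2 (m * u * m' * γ) (by positivity)
  have r3 := (hA' α3 h3).2.2 (m * u * m') (by positivity)
  have r4 := (hA' α4 h4).2.2 (m * u * m') (by positivity)
  refine (((((r1.add r2).add r3).add r4).add (Rep.unit (n := N * m * u) (by positivity))).mono
    (by rw [hk]; nlinarith)).congr ?_
  have e1 : (α1 : ℚ) = γ * w - α2 := by rw [eq_sub_iff_add_eq]; exact_mod_cast hw
  have e2 : (w : ℚ) = a * m' - (α3 + α4) := by rw [eq_sub_iff_add_eq]; exact_mod_cast hm'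
  have e3 : (a : ℚ) = q * u - 1 := by rw [eq_sub_iff_add_eq]; exact_mod_cast hqu.symm
  rw [e1, e2, e3]
  push_cast
  field_simp
  ring

theorem rep_all : ∃ k0 j0 : ℕ, ∀ j, j0 ≤ j → ∀ a b : ℕ, a < b → b ≤ Y j →
    Rep (k0 * j) (a / b) := by
  obtain ⟨s, k0, t0, h⟩ := key
  refine ⟨2 * k0 + 2, s + t0 + 1, fun j hj a b hab hb => ?_⟩
  obtain ⟨t, rfl⟩ : ∃ t, j = s + t := ⟨j - s, by omega⟩
  obtain ⟨N, X, hN, hNX, hX, hq⟩ := h t (by omega)
  obtain ⟨a', b', h1, h2, h3⟩ := greedy hab (s + t)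
  have hb' : 0 < b' := by omega
  have r1 := hq (a' * N / b') (by
    refine le_trans (Nat.le_of_mul_le_mul_left (c := b') ?_ hb') hNX
    calc b' * (a' * N / b' * Y (s + t)) = b' * (a' * N / b') * Y (s + t) := by ring
      _ ≤ a' * N * Y (s + t) := Nat.mul_le_mul_right _ (Nat.mul_div_le _ _)
      _ = a' * Y (s + t) * N := by ring
      _ ≤ _ := Nat.mul_le_mul_right _ h2.le) 1 one_pos
  have r2 := hq (a' * N % b') (by
    refine le_trans ?_ hX
    calc a' * N % b' * Y (s + t) ≤ Y (s + t) * Y (s + t) ^ 2 * Y (s + t) :=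
          Nat.mul_le_mul_right _ ((Nat.mod_lt _ hb').le.trans
            (h3.trans (Nat.mul_le_mul_right _ hb)))
      _ = _ := by ring) b' hb'
  refine (((h1.add r1).add r2).mono (by nlinarith)).congr ?_
  have e : ((a' * N % b' : ℕ) : ℚ) = a' * N - b' * (a' * N / b' : ℕ) := by
    rw [eq_sub_iff_add_eq]; exact_mod_cast Nat.mod_add_div _ _
  rw [e]
  generalize a' * N / b' = c
  push_cast
  field_simp
  ring

theorem final : ∃ C : ℝ, ∃ b₀ : ℕ, ∀ (a b : ℕ), b₀ ≤ b → 1 ≤ a → a < b →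
    ∃ S : Finset ℕ, (∀ n ∈ S, 2 ≤ n) ∧ (S.card : ℝ) ≤ C * Real.log (Real.log (b : ℝ)) ∧
      ∑ n ∈ S, (1 : ℚ) / (n : ℚ) = (a : ℚ) / (b : ℚ) := by
  classical
  obtain ⟨k0, j0, h⟩ := rep_all
  refine ⟨k0 * 4, Y (j0 + 3) + 1, fun a b hb _ hab => ?_⟩
  have hex : ∃ j, b ≤ Y j :=
    ⟨b, Nat.lt_two_pow_self.le.trans (Nat.pow_le_pow_right two_pos Nat.lt_two_pow_self.le)⟩
  have h1 := Nat.find_spec hex
  have h2 : j0 + 3 < Nat.find hex := by
    by_contra hc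
    have := Y_mono (not_lt.1 hc)
    omega
  obtain ⟨j, hj⟩ : ∃ j, Nat.find hex = j + 2 := ⟨Nat.find hex - 2, by omega⟩
  have h3 : Y (j + 1) < b := not_le.1 (Nat.find_min hex (by omega))
  have hb0 : (0 : ℚ) < b := by exact_mod_cast (by omega : 0 < b)
  obtain ⟨S, h4, h5, h6⟩ := (h _ (by omega) a b hab h1).distinct
    (by rw [div_lt_one hb0]; exact_mod_cast hab)
  refine ⟨S, h4, ?_, h6⟩
  have hl := Real.log_two_gt_d9
  have h7 : (2 : ℝ) ^ j ≤ Real.log b := by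
    have : (2 : ℝ) ^ 2 ^ (j + 1) ≤ b := by exact_mod_cast h3.le
    have h8 := Real.log_le_log (by positivity) this
    rw [Real.log_pow] at h8
    push_cast at h8
    have : (0 : ℝ) < 2 ^ j := by positivity
    rw [pow_succ] at h8
    nlinarith
  have h8 := Real.log_le_log (by positivity) h7
  rw [Real.log_pow] at h8
  have h9 : (2 : ℝ) ≤ j := by exact_mod_cast (by omega : 2 ≤ j)
  have h10 : (S.card : ℝ) ≤ k0 * (j + 2) := by rw [hj] at h5; exact_mod_cast h5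
  refine h10.trans ?_
  rw [mul_assoc]
  exact mul_le_mul_of_nonneg_left (by nlinarith) (by positivity)

end Crest.Agent.R19
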