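import Crest.Agent.R16.Primes

/-! Sums of few unit fractions: repeated denominators can be removed, and the greedy step. -/

set_option autoImplicit false

namespace Crest.Agent.R19

open Crest.Agent.R16

def rs (s : Multiset ℕ) : ℚ := (s.map fun n : ℕ => (1 : ℚ) / n).sum

theorem rs_cons (n : ℕ) (s : Multiset ℕ) : rs (n ::ₘ s) = 1 / n + rs s := by simp [rs]

theorem rs_add (s t : Multiset ℕ) : rs (s + t) = rs s + rs t := by simp [rs]

theorem rs_nonneg (s : Multiset ℕ) : 0 ≤ rs s := by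
  induction s using Multiset.induction_on with
  | empty => simp [rs]
  | cons n s ih => rw [rs_cons]; positivity

theorem rs_le (s : Multiset ℕ) {m : ℕ} (hm : 0 < m) (h : ∀ n ∈ s, m ≤ n) :
    rs s ≤ s.card / m := by
  induction s using Multiset.induction_on with
  | empty => simp [rs]
  | cons n s ih =>
    rw [rs_cons, Multiset.card_cons]
    have h1 := ih fun x hx => h x (Multiset.mem_cons_of_mem hx)
    have h2 : (1 : ℚ) / n ≤ 1 / m := one_div_le_one_div_of_le (by exact_mod_cast hm)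
      (by exact_mod_cast h n (Multiset.mem_cons_self _ _))
    push_cast
    rw [add_div]
    linarith

def Rep (k : ℕ) (x : ℚ) : Prop := ∃ s : Multiset ℕ, s.card ≤ k ∧ (∀ n ∈ s, 0 < n) ∧ rs s = x

theorem Rep.zero (k : ℕ) : Rep k 0 := ⟨0, by simp, by simp, by simp [rs]⟩

theorem Rep.unit {n : ℕ} (hn : 0 < n) : Rep 1 (1 / n) := ⟨{n}, by simp, by simpa, by simp [rs]⟩

theorem Rep.add {k l : ℕ} {x y : ℚ} (h : Rep k x) (h' : Rep l y) : Rep (k + l) (x + y) := by
  obtain ⟨s, h1, h2, rfl⟩ := h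
  obtain ⟨t, h3, h4, rfl⟩ := h'
  refine ⟨s + t, by rw [Multiset.card_add]; omega, fun n hn => ?_, rs_add _ _⟩
  rcases Multiset.mem_add.1 hn with h | h
  exacts [h2 n h, h4 n h]

theorem Rep.mono {k l : ℕ} {x : ℚ} (h : Rep k x) (hkl : k ≤ l) : Rep l x := by
  obtain ⟨s, h1, h2, h3⟩ := h
  exact ⟨s, h1.trans hkl, h2, h3⟩

theorem Rep.congr {k : ℕ} {x y : ℚ} (h : Rep k x) (hxy : x = y) : Rep k y := hxy ▸ h

theorem sum_bound (k : ℕ) : ∀ x : ℚ, ∃ M : ℕ, ∀ s : Multiset ℕ, s.card ≤ k → (∀ n ∈ s, 0 < n) →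
    rs s = x → s.sum ≤ M := by
  induction k with
  | zero =>
    intro x
    refine ⟨0, fun s hs _ _ => ?_⟩
    rw [Multiset.card_eq_zero.1 (Nat.le_zero.1 hs)]; simp
  | succ k ih =>
    intro x
    choose M hM using ih
    refine ⟨⌈(k + 1) / x⌉₊ + ∑ n ∈ Finset.range (⌈(k + 1) / x⌉₊ + 1), M (x - 1 / (n : ℕ)),
      fun s hs hpos hx => ?_⟩
    rcases s.empty_or_exists_mem with rfl | ⟨n1, hn1⟩
    · simp
    obtain ⟨n, hn, hmin⟩ := Finset.exists_min_image s.toFinset id ⟨n1, Multiset.mem_toFinset.2 hn1⟩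
    rw [Multiset.mem_toFinset] at hn
    have hn0 := hpos n hn
    have hn0' : (0 : ℚ) < n := by exact_mod_cast hn0
    have h1 := rs_le s hn0 fun m hm => hmin m (Multiset.mem_toFinset.2 hm)
    obtain ⟨t, rfl⟩ := Multiset.exists_cons_of_mem hn
    rw [Multiset.card_cons] at hs
    have hx0 : 0 < x := by
      rw [← hx, rs_cons]
      have := rs_nonneg t
      positivity
    have h2 : n ≤ ⌈(k + 1) / x⌉₊ := by
      have h3 : (n : ℚ) ≤ (k + 1) / x := by
        rw [hx, le_div_iff₀ hn0', Multiset.card_cons] at h1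
        rw [le_div_iff₀ hx0]
        have : ((t.card + 1 : ℕ) : ℚ) ≤ k + 1 := by exact_mod_cast hs
        linarith
      exact_mod_cast h3.trans (Nat.le_ceil _)
    have h3 := hM (x - 1 / n) t (by omega) (fun m hm => hpos m (Multiset.mem_cons_of_mem hm))
      (by rw [← hx, rs_cons]; ring)
    have h4 := Finset.single_le_sum (f := fun n : ℕ => M (x - 1 / (n : ℕ)))
      (fun _ _ => Nat.zero_le _) (Finset.mem_range.2 (Nat.lt_succ_of_le h2))
    rw [Multiset.sum_cons]
    exact Nat.add_le_add h2 (h3.trans h4)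

theorem Rep.distinct {k : ℕ} {x : ℚ} (h : Rep k x) (hx : x < 1) :
    ∃ S : Finset ℕ, (∀ n ∈ S, 2 ≤ n) ∧ S.card ≤ k ∧ ∑ n ∈ S, (1 : ℚ) / (n : ℚ) = x := by
  obtain ⟨M, hM⟩ := sum_bound k x
  obtain ⟨s, h1, h2, h3⟩ := h
  induction hμ : s.card * (M + 1) + (M - s.sum) using Nat.strong_induction_on generalizing s with
  | _ μ ih =>
  have htwo : ∀ n ∈ s, 2 ≤ n := by
    intro n hn
    have h4 := h2 n hn
    by_contra h5
    obtain rfl : n = 1 := by omega
    obtain ⟨t, rfl⟩ := Multiset.exists_cons_of_mem hn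
    rw [rs_cons] at h3
    have := rs_nonneg t
    simp only [Nat.cast_one] at h3
    linarith
  by_cases hd : s.Nodup
  · exact ⟨⟨s, hd⟩, htwo, h1, h3⟩
  rw [Multiset.nodup_iff_le] at hd
  push Not at hd
  obtain ⟨n, hn⟩ := hd
  obtain ⟨t, rfl⟩ := Multiset.le_iff_exists_add.1 hn
  have hn2 : 2 ≤ n := htwo n (by simp)
  have hs := hM _ h1 h2 h3
  have ht : ∀ m ∈ t, 0 < m := fun m hm => h2 m (by simp [hm])
  simp only [Multiset.cons_add, zero_add, Multiset.card_cons, Multiset.sum_cons, rs_cons] at *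
  rcases Nat.even_or_odd' n with ⟨m, rfl | rfl⟩
  · have hm : (m : ℚ) ≠ 0 := by exact_mod_cast (by omega : m ≠ 0)
    refine ih _ ?_ (m ::ₘ t) (by rw [Multiset.card_cons]; omega) (fun y hy => ?_) ?_ rfl
    · rw [← hμ, Multiset.card_cons, add_mul (t.card + 1) 1]
      omega
    · rcases Multiset.mem_cons.1 hy with rfl | hy
      exacts [by omega, ht y hy]
    · rw [← h3, rs_cons]; push_cast; field_simp; ring
  · have hpos : ∀ y ∈ (m + 1) ::ₘ ((2 * m + 1) * (m + 1)) ::ₘ t, 0 < y := by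
      intro y hy
      rcases Multiset.mem_cons.1 hy with rfl | hy
      · omega
      rcases Multiset.mem_cons.1 hy with rfl | hy
      exacts [by positivity, ht y hy]
    have hr : rs ((m + 1) ::ₘ ((2 * m + 1) * (m + 1)) ::ₘ t) = x := by
      rw [← h3, rs_cons, rs_cons]; push_cast; field_simp; ring
    have hc : ((m + 1) ::ₘ ((2 * m + 1) * (m + 1)) ::ₘ t).card ≤ k := by simpa using h1
    have h5 := hM _ hc hpos hr
    refine ih _ ?_ _ hc hpos hr rfl
    rw [← hμ]
    simp only [Multiset.card_cons, Multiset.sum_cons] at h5 ⊢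
    have : 2 * m + 1 + (2 * m + 1) < m + 1 + (2 * m + 1) * (m + 1) := by nlinarith
    omega

theorem greedy {a b : ℕ} (hab : a < b) (j : ℕ) : ∃ a' b' : ℕ, Rep (j + 1) (a / b - a' / b') ∧
    a' * Y j < b' ∧ b' ≤ b * Y j ^ 2 := by
  induction j with
  | zero =>
    have hb : (b : ℚ) ≠ 0 := by exact_mod_cast (by omega : b ≠ 0)
    by_cases h : a * 2 < b
    · exact ⟨a, b, (Rep.zero _).congr (by ring), by simpa [Y] using h, by simp [Y]; omega⟩
    · refine ⟨2 * a - b, 2 * b, (Rep.unit two_pos).congr ?_, by simp [Y]; omega, by simp [Y]; omega⟩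
      rw [Nat.cast_sub (by omega)]
      push_cast; field_simp; ring
  | succ j ih =>
    obtain ⟨a', b', h1, h2, h3⟩ := ih
    have hY : Y (j + 1) = Y j * Y j := by simp [Y, pow_succ, pow_mul]
    have hY2 := two_le_Y j
    rw [hY]
    generalize Y j = m at *
    by_cases h : a' * (m * m) < b'
    · refine ⟨a', b', h1.mono (by omega), h, h3.trans (Nat.mul_le_mul_left _ ?_)⟩
      exact Nat.pow_le_pow_left (Nat.le_mul_self m) 2
    · have ha : 0 < a' := Nat.pos_of_ne_zero (by rintro rfl; omega)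
      obtain ⟨n, hn1, hn2⟩ : ∃ n, a' * n < b' ∧ b' ≤ a' * (n + 1) := by
        refine ⟨(b' - 1) / a', ?_, ?_⟩
        · have := Nat.mul_div_le (b' - 1) a'
          omega
        · have := Nat.lt_mul_div_succ (b' - 1) ha
          omega
      have hmn : m ≤ n := by
        by_contra hc
        have := Nat.mul_le_mul_left a' (show n + 1 ≤ m by omega)
        omega
      have hn : n < m * m := lt_of_mul_lt_mul_left (a := a') (by omega) (Nat.zero_le _)
      have hb : (b' : ℚ) ≠ 0 := by exact_mod_cast (by omega : b' ≠ 0)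
      refine ⟨a' * (n + 1) - b', b' * (n + 1), (h1.add (Rep.unit n.succ_pos)).congr ?_, ?_, ?_⟩
      · rw [Nat.cast_sub hn2]
        push_cast; field_simp; ring
      · calc (a' * (n + 1) - b') * (m * m) ≤ a' * (m * m) :=
              Nat.mul_le_mul_right _ (by rw [mul_add] at *; omega)
          _ = a' * m * m := by ring
          _ ≤ b' * m := Nat.mul_le_mul_right _ h2.le
          _ < b' * (n + 1) := Nat.mul_lt_mul_of_pos_left (by omega) (by omega)
      · calc b' * (n + 1) ≤ b * m ^ 2 * (m * m) := Nat.mul_le_mul h3 hn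
          _ = _ := by ring

end Crest.Agent.R19
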